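import Mathlib

/-!
# P110: a universal lower bound for the flatness constant of real Littlewood polynomials

For a Littlewood polynomial `P` of length `N` with `m ≤ |P|^2 ≤ M` on the unit circle we prove
`(M - N) (N - m) ≥ N - 1`.  The proof averages `(M - |P|^2) (|P|^2 - m) ≥ 0` over the circle, uses
Parseval for `P` and for `P * P^*` (`P^*` the reversed polynomial) and the fact that modulo `2` the
product `P * P^*` is `(1 + X + ... + X^(N-1))^2 = 1 + X^2 + ... + X^(2N-2)`, so that `N` of the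
autocorrelations are odd.
-/

open Polynomial

namespace Vale.Agent.Results.P110.FlatnessRate

/-- The value at `z` of the Littlewood polynomial of length `N` with sign vector `ε`. -/
noncomputable def littlewood {N : ℕ} (ε : Fin N → ℤ) (z : ℂ) : ℂ :=
  ∑ k : Fin N, (ε k : ℂ) * z ^ (k : ℕ)

/-- integer polynomial with coefficient sequence `e` of length `N` -/
noncomputable def pol (N : ℕ) (e : ℕ → ℤ) : ℤ[X] := ∑ k ∈ Finset.range N, C (e k) * X ^ k

lemma coeff_pol (N : ℕ) (e : ℕ → ℤ) (i : ℕ) : (pol N e).coeff i = if i < N then e i else 0 := by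
  unfold pol
  rw [finsetSum_coeff]
  simp only [coeff_C_mul_X_pow]
  rw [Finset.sum_ite_eq]
  simp

lemma map_pol_zmod (N : ℕ) (e : ℕ → ℤ) (he : ∀ k < N, e k = 1 ∨ e k = -1) :
    (pol N e).map (Int.castRingHom (ZMod 2)) = ∑ k ∈ Finset.range N, (X : (ZMod 2)[X]) ^ k := by
  unfold pol
  rw [Polynomial.map_sum]
  apply Finset.sum_congr rfl
  intro k hk
  have h1 : ((e k : ℤ) : ZMod 2) = 1 := by
    rcases he k (Finset.mem_range.mp hk) with h | h
    · simp [h]
    · rw [h]; decide
  rw [Polynomial.map_mul, Polynomial.map_pow, Polynomial.map_X, Polynomial.map_C, eq_intCast, h1]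
  simp

/-- the product of two sign polynomials has nonzero coefficients in all even degrees `< 2N` -/
lemma coeff_mul_ne_zero (N : ℕ) (e e' : ℕ → ℤ) (he : ∀ k < N, e k = 1 ∨ e k = -1)
    (he' : ∀ k < N, e' k = 1 ∨ e' k = -1) (j : ℕ) (hj : j < N) :
    (pol N e * pol N e').coeff (2 * j) ≠ 0 := by
  intro h
  have h1 : ((pol N e * pol N e').map (Int.castRingHom (ZMod 2))).coeff (2 * j) = 0 := by
    rw [coeff_map, h]; simp
  rw [Polynomial.map_mul, map_pol_zmod N e he, map_pol_zmod N e' he', ← sq, sum_pow_char 2] at h1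
  rw [finsetSum_coeff] at h1
  simp only [← pow_mul, coeff_X_pow] at h1
  have h2 : ∑ x ∈ Finset.range N, (if 2 * j = x * 2 then (1 : ZMod 2) else 0) = 1 := by
    rw [Finset.sum_eq_single j]
    · simp [mul_comm]
    · intro b _ hb
      rw [if_neg]; omega
    · intro hn; exact absurd (Finset.mem_range.mpr hj) hn
  rw [h2] at h1
  exact one_ne_zero h1

lemma coeff_mul_center (N : ℕ) (hN : 0 < N) (e : ℕ → ℤ) (he : ∀ k < N, e k = 1 ∨ e k = -1) :
    (pol N e * pol N (fun k => e (N - 1 - k))).coeff (N - 1) = N := by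
  rw [coeff_mul, Finset.Nat.sum_antidiagonal_eq_sum_range_succ
    (fun a b => (pol N e).coeff a * (pol N (fun k => e (N - 1 - k))).coeff b)]
  have hN' : (N - 1).succ = N := by omega
  rw [hN']
  have : ∀ k ∈ Finset.range N,
      (pol N e).coeff k * (pol N (fun k => e (N - 1 - k))).coeff (N - 1 - k) = 1 := by
    intro k hk
    have hk' := Finset.mem_range.mp hk
    rw [coeff_pol, coeff_pol, if_pos hk', if_pos (by omega)]
    have : N - 1 - (N - 1 - k) = k := by omega
    rw [this]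
    rcases he k hk' with h | h <;> simp [h]
  rw [Finset.sum_congr rfl this]
  simp

/-- the value of the polynomial -/
noncomputable def val (N : ℕ) (e : ℕ → ℤ) (z : ℂ) : ℂ := ∑ k ∈ Finset.range N, (e k : ℂ) * z ^ k

lemma eval_map_pol (N : ℕ) (e : ℕ → ℤ) (z : ℂ) :
    ((pol N e).map (Int.castRingHom ℂ)).eval z = val N e z := by
  unfold pol val
  rw [Polynomial.map_sum, eval_finsetSum]
  apply Finset.sum_congr rfl
  intro k _
  simp

lemma norm_val_rev (N : ℕ) (e : ℕ → ℤ) (z : ℂ) (hz : ‖z‖ = 1) :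
    ‖val N (fun k => e (N - 1 - k)) z‖ = ‖val N e z‖ := by
  have h1 : val N (fun k => e (N - 1 - k)) z = z ^ (N - 1) * (starRingEnd ℂ) (val N e z) := by
    unfold val
    rw [map_sum, Finset.mul_sum, ← Finset.sum_range_reflect]
    apply Finset.sum_congr rfl
    intro k hk
    have hk' := Finset.mem_range.mp hk
    rw [map_mul, map_pow, map_intCast]
    have hzz : z * (starRingEnd ℂ) z = 1 := by
      rw [Complex.mul_conj, Complex.normSq_eq_norm_sq, hz]; simp
    have hpow : z ^ (N - 1) = z ^ (N - 1 - k) * z ^ k := by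
      rw [← pow_add]; congr 1; omega
    have hidx : N - 1 - (N - 1 - k) = k := by omega
    simp only [hidx]
    rw [hpow]
    calc (e k : ℂ) * z ^ (N - 1 - k)
        = (e k : ℂ) * z ^ (N - 1 - k) * (z * (starRingEnd ℂ) z) ^ k := by
          rw [hzz]; simp
      _ = z ^ (N - 1 - k) * z ^ k * ((e k : ℂ) * (starRingEnd ℂ) z ^ k) := by
          rw [mul_pow]; ring
  rw [h1, norm_mul, norm_pow, hz, one_pow, one_mul, Complex.norm_conj]

lemma sum_le_support (R : ℂ[X]) (T : Finset ℕ) :
    ∑ i ∈ T, ‖R.coeff i‖ ^ 2 ≤ ∑ i ∈ R.support, ‖R.coeff i‖ ^ 2 := by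
  classical
  rw [← Finset.sum_filter_add_sum_filter_not T (fun i => i ∈ R.support)]
  have h0 : ∑ i ∈ T.filter (fun i => ¬ i ∈ R.support), ‖R.coeff i‖ ^ 2 = 0 := by
    apply Finset.sum_eq_zero
    intro i hi
    have := (Finset.mem_filter.mp hi).2
    rw [mem_support_iff, not_not] at this
    simp [this]
  rw [h0, add_zero]
  apply Finset.sum_le_sum_of_subset_of_nonneg
  · intro i hi; exact (Finset.mem_filter.mp hi).2
  · intro i _ _; positivity

lemma avg_sq (N : ℕ) (e : ℕ → ℤ) (he : ∀ k < N, e k = 1 ∨ e k = -1) :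
    Real.circleAverage (fun z => ‖val N e z‖ ^ 2) 0 1 = N := by
  have h := sum_sq_norm_coeff_eq_circleAverage ((pol N e).map (Int.castRingHom ℂ))
  simp only [eval_map_pol] at h
  rw [← h]
  have hsub : ((pol N e).map (Int.castRingHom ℂ)).support ⊆ Finset.range N := by
    intro i hi
    rw [mem_support_iff, coeff_map, coeff_pol] at hi
    by_contra hcon
    rw [Finset.mem_range] at hcon
    rw [if_neg hcon] at hi
    simp at hi
  rw [Finset.sum_subset hsub]
  · have : ∀ i ∈ Finset.range N, ‖((pol N e).map (Int.castRingHom ℂ)).coeff i‖ ^ 2 = 1 := by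
      intro i hi
      have hi' := Finset.mem_range.mp hi
      rw [coeff_map, coeff_pol, if_pos hi']
      rcases he i hi' with h | h <;> simp [h]
    rw [Finset.sum_congr rfl this]
    simp
  · intro i _ hi
    rw [mem_support_iff, not_not] at hi
    simp [hi]

lemma avg_fourth (N : ℕ) (hN : 0 < N) (e : ℕ → ℤ) (he : ∀ k < N, e k = 1 ∨ e k = -1) :
    (N : ℝ) ^ 2 + (N - 1) ≤ Real.circleAverage (fun z => (‖val N e z‖ ^ 2) ^ 2) 0 1 := by
  classical
  set e' : ℕ → ℤ := fun k => e (N - 1 - k) with he'def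
  have he' : ∀ k < N, e' k = 1 ∨ e' k = -1 := fun k _ => he (N - 1 - k) (by omega)
  have h := sum_sq_norm_coeff_eq_circleAverage ((pol N e * pol N e').map (Int.castRingHom ℂ))
  have hcongr : Real.circleAverage
      (fun z => ‖((pol N e * pol N e').map (Int.castRingHom ℂ)).eval z‖ ^ 2) 0 1
      = Real.circleAverage (fun z => (‖val N e z‖ ^ 2) ^ 2) 0 1 := by
    apply Real.circleAverage_congr_sphere
    intro z hz
    have hz' : ‖z‖ = 1 := by simpa using hz
    simp only
    rw [Polynomial.map_mul, eval_mul, eval_map_pol, eval_map_pol, norm_mul,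
      norm_val_rev N e z hz']
    ring
  rw [← hcongr, ← h]
  set S : Finset ℕ := ((Finset.range N).image (fun j => 2 * j)).erase (N - 1) with hS
  have hcard : N - 1 ≤ S.card := by
    have h1 : ((Finset.range N).image (fun j => 2 * j)).card = N := by
      rw [Finset.card_image_of_injective _ (fun a b hab => by simpa using hab)]
      simp
    have := Finset.pred_card_le_card_erase (s := (Finset.range N).image (fun j => 2 * j))
      (a := N - 1)
    rw [h1] at this
    exact this
  have hnot : N - 1 ∉ S := Finset.notMem_erase _ _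
  refine le_trans ?_ (sum_le_support _ (insert (N - 1) S))
  rw [Finset.sum_insert hnot]
  have hc : ‖((pol N e * pol N e').map (Int.castRingHom ℂ)).coeff (N - 1)‖ ^ 2 = (N : ℝ) ^ 2 := by
    rw [coeff_map, coeff_mul_center N hN e he]
    simp
  rw [hc]
  have hs : ((N : ℝ) - 1) ≤ ∑ i ∈ S, ‖((pol N e * pol N e').map (Int.castRingHom ℂ)).coeff i‖ ^ 2 := by
    have h1 : ∀ i ∈ S, (1 : ℝ) ≤ ‖((pol N e * pol N e').map (Int.castRingHom ℂ)).coeff i‖ ^ 2 := by
      intro i hi
      obtain ⟨j, hj, rfl⟩ := Finset.mem_image.mp (Finset.mem_of_mem_erase hi)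
      have hne := coeff_mul_ne_zero N e e' he he' j (Finset.mem_range.mp hj)
      rw [coeff_map]
      simp only [eq_intCast, Complex.norm_intCast]
      have : (1 : ℝ) ≤ |(((pol N e * pol N e').coeff (2 * j) : ℤ) : ℝ)| := by
        exact_mod_cast Int.one_le_abs hne
      nlinarith
    have h2 := Finset.sum_le_sum h1
    simp only [Finset.sum_const, nsmul_eq_mul, mul_one] at h2
    have h3 : ((N : ℝ) - 1) ≤ (S.card : ℝ) := by
      have : ((N - 1 : ℕ) : ℝ) ≤ (S.card : ℝ) := by exact_mod_cast hcard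
      rw [Nat.cast_sub hN] at this
      simpa using this
    linarith
  linarith

lemma continuous_val (N : ℕ) (e : ℕ → ℤ) : Continuous (val N e) := by
  unfold val
  fun_prop

lemma core (N : ℕ) (e : ℕ → ℤ) (he : ∀ k < N, e k = 1 ∨ e k = -1) (m M : ℝ)
    (h : ∀ z : ℂ, ‖z‖ = 1 → m ≤ ‖val N e z‖ ^ 2 ∧ ‖val N e z‖ ^ 2 ≤ M) :
    (N : ℝ) - 1 ≤ (M - N) * (N - m) := by
  rcases Nat.eq_zero_or_pos N with hN | hN
  · subst hN
    have := h 1 (by simp)
    simp [val] at this
    simp only [Nat.cast_zero]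
    nlinarith [this.1, this.2]
  have hc := continuous_val N e
  have i1 : CircleIntegrable (fun z => ‖val N e z‖ ^ 2) 0 1 :=
    (Continuous.continuousOn (by fun_prop)).circleIntegrable'
  have i2 : CircleIntegrable (fun z => (‖val N e z‖ ^ 2) ^ 2) 0 1 :=
    (Continuous.continuousOn (by fun_prop)).circleIntegrable'
  have i3 : CircleIntegrable (fun z => (M + m) • ‖val N e z‖ ^ 2) 0 1 :=
    (Continuous.continuousOn (by fun_prop)).circleIntegrable'
  have i4 : CircleIntegrable (fun z => (M + m) • ‖val N e z‖ ^ 2 - M * m) 0 1 :=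
    (Continuous.continuousOn (by fun_prop)).circleIntegrable'
  have hnn : 0 ≤ Real.circleAverage
      (fun z => ((M + m) • ‖val N e z‖ ^ 2 - M * m) - (‖val N e z‖ ^ 2) ^ 2) 0 1 := by
    apply Real.circleAverage_nonneg_of_nonneg
    intro z hz
    have hz' : ‖z‖ = 1 := by simpa using hz
    obtain ⟨h1, h2⟩ := h z hz'
    simp only [smul_eq_mul]
    nlinarith [mul_nonneg (sub_nonneg.mpr h1) (sub_nonneg.mpr h2)]
  rw [Real.circleAverage_fun_sub i4 i2, Real.circleAverage_fun_sub i3 (circleIntegrable_const _ _ _),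
    Real.circleAverage_fun_smul, Real.circleAverage_const, avg_sq N e he, smul_eq_mul] at hnn
  have h4 := avg_fourth N hN e he
  nlinarith

lemma core' (N : ℕ) (e : ℕ → ℤ) (he : ∀ k < N, e k = 1 ∨ e k = -1) (c : ℝ) (hc : 0 ≤ c)
    (h : ∀ z : ℂ, ‖z‖ = 1 → (1 - c) * Real.sqrt N ≤ ‖val N e z‖ ∧
      ‖val N e z‖ ≤ (1 + c) * Real.sqrt N) :
    (N : ℝ) - 1 ≤ 4 * c ^ 2 * (N : ℝ) ^ 2 := by
  have hN0 : (0 : ℝ) ≤ N := Nat.cast_nonneg N
  rcases le_or_gt 1 c with h1 | h1
  · have : (1 : ℝ) ≤ c ^ 2 := by nlinarith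
    nlinarith [sq_nonneg ((N : ℝ) - 1)]
  · have hs : Real.sqrt N ^ 2 = N := Real.sq_sqrt hN0
    have hs0 := Real.sqrt_nonneg (N : ℝ)
    have := core N e he ((1 - c) ^ 2 * N) ((1 + c) ^ 2 * N) (by
      intro z hz
      obtain ⟨a1, a2⟩ := h z hz
      constructor
      · have : ((1 - c) * Real.sqrt N) ^ 2 ≤ ‖val N e z‖ ^ 2 := by
          apply pow_le_pow_left₀ _ a1
          have : 0 ≤ 1 - c := by linarith
          positivity
        rw [mul_pow, hs] at this
        exact this
      · have : ‖val N e z‖ ^ 2 ≤ ((1 + c) * Real.sqrt N) ^ 2 :=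
          pow_le_pow_left₀ (norm_nonneg _) a2 2
        rw [mul_pow, hs] at this
        exact this)
    have e1 : ((1 + c) ^ 2 * (N : ℝ) - N) * (N - (1 - c) ^ 2 * N)
        = (4 * c ^ 2 - c ^ 4) * (N : ℝ) ^ 2 := by ring
    rw [e1] at this
    have : 0 ≤ c ^ 4 * (N : ℝ) ^ 2 := by positivity
    nlinarith

theorem result (N : ℕ) (ε : Fin N → ℤ) (hε : ∀ k, ε k = 1 ∨ ε k = -1) :
    (∀ m M : ℝ, (∀ z : ℂ, ‖z‖ = 1 → m ≤ ‖littlewood ε z‖ ^ 2 ∧ ‖littlewood ε z‖ ^ 2 ≤ M) →
      (N : ℝ) - 1 ≤ (M - N) * (N - m)) ∧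
    (∀ c : ℝ, 0 ≤ c → (∀ z : ℂ, ‖z‖ = 1 → (1 - c) * Real.sqrt N ≤ ‖littlewood ε z‖ ∧
      ‖littlewood ε z‖ ≤ (1 + c) * Real.sqrt N) → Real.sqrt ((N : ℝ) - 1) / (2 * N) ≤ c) := by
  set e : ℕ → ℤ := fun k => if h : k < N then ε ⟨k, h⟩ else 1 with hedef
  have he : ∀ k < N, e k = 1 ∨ e k = -1 := by
    intro k hk
    simp only [hedef, dif_pos hk]
    exact hε _
  have hval : ∀ z, littlewood ε z = val N e z := by
    intro z
    unfold littlewood val
    rw [← Fin.sum_univ_eq_sum_range (fun k => (e k : ℂ) * z ^ k) N]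
    apply Finset.sum_congr rfl
    intro k _
    simp [hedef]
  simp only [hval]
  refine ⟨fun m M h => core N e he m M h, fun c hc h => ?_⟩
  have h1 := core' N e he c hc h
  rcases Nat.eq_zero_or_pos N with hN | hN
  · subst hN; simpa using hc
  have hNpos : (0 : ℝ) < N := by exact_mod_cast hN
  rw [div_le_iff₀ (by positivity)]
  apply Real.sqrt_le_iff.mpr
  constructor
  · positivity
  · nlinarith

end Vale.Agent.Results.P110.FlatnessRate
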